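import Mathlib
import Vale.Agent.Lib.P184.Cocompact
import Vale.Agent.Lib.P184.HypGroupMain

namespace Vale.Agent.Results.P184.CAT0AndHyperbolic

universe u v

/-- The statements of the hand-ins `CAT0Groups` (A) and `HyperbolicGroups` (B) of this folder,
word for word, as the two conjuncts of one theorem; it adds no mathematics to them.

(A) Let a group `G` act by isometries on a pseudo-metric space `X` satisfying the CN
inequality of Bruhat and Tits (as every CAT(0) space does), properly (only finitely many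
elements move the point `x₀` by at most `r`, for every `r`) and cocompactly (a compact set `K`
meets every orbit).  Then the l1-Bass statement holds for `G`: for every idempotent `q × q`
matrix `e` over the convolution algebra of absolutely summable complex functions on `G` there
is a finite set `F` of conjugacy classes of elements of finite order such that the
Hattori-Stallings trace coefficient of `e` vanishes at every conjugacy class outside `F`; and
for every subgroup `H` of `G` and every idempotent matrix over the convolution algebra of `H`,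
the trace coefficient vanishes at the conjugacy class in `H` of every element of infinite
order.

(B) The same two conclusions for a hyperbolic group `G`: `S` is a finite subset of `G`, the
function `ℓ` is the word length with respect to `S`, and the word metric `ℓ (x⁻¹ * y)`
satisfies the four point condition of Gromov with some constant `δ`. -/
theorem result :
    (∀ {G : Type u} [Group G] {X : Type v} [PseudoMetricSpace X] [MulAction G X]
      (_hiso : ∀ (a : G) (x y : X), dist (a • x) (a • y) = dist x y)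
      (_hCN : ∀ x y : X, ∃ m : X, ∀ p : X,
        dist p m ^ 2 ≤ (dist p x ^ 2 + dist p y ^ 2) / 2 - dist x y ^ 2 / 4)
      (x₀ : X) (_hproper : ∀ r : ℝ, {a : G | dist x₀ (a • x₀) ≤ r}.Finite)
      (K : Set X) (_hK : IsCompact K) (_hcov : ∀ x : X, ∃ a : G, a • x ∈ K),
      (∀ (q : ℕ) (e : Fin q → Fin q → G → ℂ),
        (∀ i j, Summable fun g => ‖e i j g‖) →
        (∀ i k g, ∑ j, ∑' h, e i j h * e j k (h⁻¹ * g) = e i k g) →
        ∃ F : Finset (ConjClasses G),
          (∀ C ∈ F, ∀ x ∈ C.carrier, IsOfFinOrder x) ∧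
          ∀ C : ConjClasses G, C ∉ F → ∑' x : C.carrier, ∑ i, e i i (x : G) = 0) ∧
      (∀ (H : Subgroup G) (q : ℕ) (e : Fin q → Fin q → H → ℂ),
        (∀ i j, Summable fun g => ‖e i j g‖) →
        (∀ i k g, ∑ j, ∑' h, e i j h * e j k (h⁻¹ * g) = e i k g) →
        ∀ h : H, ¬ IsOfFinOrder h →
          ∑' x : (ConjClasses.mk h).carrier, ∑ i, e i i (x : H) = 0)) ∧
    (∀ {G : Type u} [Group G] (S : Finset G) (ℓ : G → ℕ)
      (_hℓ : ∀ (x : G) (n : ℕ), ℓ x ≤ n ↔
        ∃ l : List G, (∀ s ∈ l, s ∈ S ∨ s⁻¹ ∈ S) ∧ l.length ≤ n ∧ l.prod = x)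
      (δ : ℝ)
      (_hδ : ∀ x y z w : G, (ℓ (x⁻¹ * z) : ℝ) + ℓ (y⁻¹ * w)
        ≤ max ((ℓ (x⁻¹ * y) : ℝ) + ℓ (z⁻¹ * w)) (ℓ (x⁻¹ * w) + ℓ (y⁻¹ * z)) + δ),
      (∀ (q : ℕ) (e : Fin q → Fin q → G → ℂ),
        (∀ i j, Summable fun g => ‖e i j g‖) →
        (∀ i k g, ∑ j, ∑' h, e i j h * e j k (h⁻¹ * g) = e i k g) →
        ∃ F : Finset (ConjClasses G),
          (∀ C ∈ F, ∀ x ∈ C.carrier, IsOfFinOrder x) ∧
          ∀ C : ConjClasses G, C ∉ F → ∑' x : C.carrier, ∑ i, e i i (x : G) = 0) ∧
      (∀ (H : Subgroup G) (q : ℕ) (e : Fin q → Fin q → H → ℂ),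
        (∀ i j, Summable fun g => ‖e i j g‖) →
        (∀ i k g, ∑ j, ∑' h, e i j h * e j k (h⁻¹ * g) = e i k g) →
        ∀ h : H, ¬ IsOfFinOrder h →
          ∑' x : (ConjClasses.mk h).carrier, ∑ i, e i i (x : H) = 0)) := by
  refine ⟨?_, ?_⟩
  · intro G _ X _ _ hiso hCN x₀ hproper K hK hcov
    exact ⟨fun q e hsum hidem =>
        Vale.Agent.Lib.P184.cn_cocompact_bass hiso hCN x₀ hproper K hK hcov q e hsum hidem,
      fun H q e hsum hidem h hh =>
        Vale.Agent.Lib.P184.cn_cocompact_subgroup_vanishing hiso hCN x₀ hproper K hK hcov H q e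
          hsum hidem h hh⟩
  · intro G _ S ℓ hℓ δ hδ
    exact ⟨fun q e hsum hidem =>
        (Vale.Agent.Lib.P184.wordHyp_of_word S ℓ hℓ δ hδ).bass q e hsum hidem,
      fun H q e hsum hidem h hh =>
        (Vale.Agent.Lib.P184.wordHyp_of_word S ℓ hℓ δ hδ).subgroup_vanishing H q e hsum hidem
          h hh⟩

end Vale.Agent.Results.P184.CAT0AndHyperbolic
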