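import Mathlib
import Vale.Agent.Lib.P184.HypGroupMain

namespace Vale.Agent.Results.P184.HyperbolicGroups

/-- Let `G` be a hyperbolic group: `S` is a finite subset of `G`, the function `ℓ` is the
word length with respect to `S` (an element has length at most `n` exactly when it is a
product of at most `n` elements of `S` and inverses of elements of `S`; in particular `S`
generates `G`), and the word metric `ℓ (x⁻¹ * y)` satisfies the four point condition of
Gromov with some constant `δ`. Then:

1. the l1-Bass statement holds for `G`: for every idempotent `q × q` matrix `e` over the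
convolution algebra of absolutely summable complex functions on `G` there is a finite
set `F` of conjugacy classes of elements of finite order such that the Hattori-Stallings
trace coefficient of `e` vanishes at every conjugacy class outside `F`;

2. for every subgroup `H` of `G` and every idempotent matrix over the convolution algebra
of `H`, the trace coefficient vanishes at the conjugacy class in `H` of every element of
infinite order. -/
theorem result {G : Type*} [Group G] (S : Finset G) (ℓ : G → ℕ)
    (hℓ : ∀ (x : G) (n : ℕ), ℓ x ≤ n ↔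
      ∃ l : List G, (∀ s ∈ l, s ∈ S ∨ s⁻¹ ∈ S) ∧ l.length ≤ n ∧ l.prod = x)
    (δ : ℝ)
    (hδ : ∀ x y z w : G, (ℓ (x⁻¹ * z) : ℝ) + ℓ (y⁻¹ * w)
      ≤ max ((ℓ (x⁻¹ * y) : ℝ) + ℓ (z⁻¹ * w)) (ℓ (x⁻¹ * w) + ℓ (y⁻¹ * z)) + δ) :
    (∀ (q : ℕ) (e : Fin q → Fin q → G → ℂ),
      (∀ i j, Summable fun g => ‖e i j g‖) →
      (∀ i k g, ∑ j, ∑' h, e i j h * e j k (h⁻¹ * g) = e i k g) →
      ∃ F : Finset (ConjClasses G),
        (∀ C ∈ F, ∀ x ∈ C.carrier, IsOfFinOrder x) ∧
        ∀ C : ConjClasses G, C ∉ F → ∑' x : C.carrier, ∑ i, e i i (x : G) = 0) ∧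
    (∀ (H : Subgroup G) (q : ℕ) (e : Fin q → Fin q → H → ℂ),
      (∀ i j, Summable fun g => ‖e i j g‖) →
      (∀ i k g, ∑ j, ∑' h, e i j h * e j k (h⁻¹ * g) = e i k g) →
      ∀ h : H, ¬ IsOfFinOrder h →
        ∑' x : (ConjClasses.mk h).carrier, ∑ i, e i i (x : H) = 0) :=
  ⟨fun q e hsum hidem =>
      (Vale.Agent.Lib.P184.wordHyp_of_word S ℓ hℓ δ hδ).bass q e hsum hidem,
    fun H q e hsum hidem h hh =>
      (Vale.Agent.Lib.P184.wordHyp_of_word S ℓ hℓ δ hδ).subgroup_vanishing H q e hsum hidem
        h hh⟩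

end Vale.Agent.Results.P184.HyperbolicGroups
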