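import Mathlib
import Vale.Agent.Lib.P184.Arith

namespace Vale.Agent.Results.P184.LinearGroupsVanishing

/-- Let `ρ` be a representation of a group `G` by invertible `n × n` matrices over a number
field `K`, and let `g` in `G` be such that `ρ g` is not quasi-unipotent: no positive power
of `ρ g` is unipotent. Then for every idempotent `q × q` matrix `e` over the convolution
algebra of absolutely summable complex functions on `G`, the Hattori-Stallings trace
coefficient of `e` at the conjugacy class of `g` vanishes. -/
theorem result {G : Type*} [Group G] (q : ℕ) (e : Fin q → Fin q → G → ℂ)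
    (hsum : ∀ i j, Summable fun g => ‖e i j g‖)
    (hidem : ∀ i k g, ∑ j, ∑' h, e i j h * e j k (h⁻¹ * g) = e i k g)
    {K : Type*} [Field K] [NumberField K] {n : ℕ}
    (ρ : G →* GL (Fin n) K) (g : G)
    (hq : ∀ m : ℕ, 0 < m → ((ρ g : Matrix (Fin n) (Fin n) K) ^ m - 1) ^ n ≠ 0) :
    ∑' x : (ConjClasses.mk g).carrier, ∑ i, e i i (x : G) = 0 :=
  Vale.Agent.Lib.P184.number_field_vanishing q e hsum hidem ρ g hq

end Vale.Agent.Results.P184.LinearGroupsVanishing
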