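import Mathlib
import Vale.Agent.Lib.P184.Lox

namespace Vale.Agent.Results.P184.LoxodromicVanishing

/-- Let a group `G` act by isometries on a pseudo-metric space `X` that is hyperbolic in
the sense of the four point condition of Gromov with constant `δ` (no geodesics and no
properness of the space or of the action are assumed). Let `g` in `G` act loxodromically
(the orbit of the base point `x₀` under the powers of `g` grows linearly) and let the
centralizer of `g` act properly on the orbit of `x₀` (for every `r`, only finitely many
elements commuting with `g` move `x₀` by at most `r`). Then for every idempotent `q × q`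
matrix `e` over the convolution algebra of absolutely summable complex functions on `G`,
the Hattori-Stallings trace coefficient of `e` at the conjugacy class of `g` vanishes. -/
theorem result {G : Type*} [Group G] (q : ℕ) (e : Fin q → Fin q → G → ℂ)
    (hsum : ∀ i j, Summable fun g => ‖e i j g‖)
    (hidem : ∀ i k g, ∑ j, ∑' h, e i j h * e j k (h⁻¹ * g) = e i k g)
    {X : Type*} [PseudoMetricSpace X] [MulAction G X]
    (hiso : ∀ (a : G) (x y : X), dist (a • x) (a • y) = dist x y)
    (δ : ℝ)
    (hδ : ∀ x y z w : X,
      dist x z + dist y w ≤ max (dist x y + dist z w) (dist x w + dist y z) + δ)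
    (x₀ : X) (g : G) (ε : ℝ) (hε : 0 < ε)
    (hlox : ∀ n : ℕ, ε * n ≤ dist x₀ (g ^ n • x₀))
    (hprop : ∀ r : ℝ, {z : G | Commute z g ∧ dist x₀ (z • x₀) ≤ r}.Finite) :
    ∑' x : (ConjClasses.mk g).carrier, ∑ i, e i i (x : G) = 0 :=
  Vale.Agent.Lib.P184.loxodromic_vanishing hiso δ hδ x₀ g ε hε hlox hprop q e hsum hidem

end Vale.Agent.Results.P184.LoxodromicVanishing
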